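import Mathlib.Geometry.Manifold.PartitionOfUnity
import Crest.Agent.N222.L.Cv3

/-!
# Row 228, necks (helper16): ambient extensions; `C²` convergence of all smooth functions in a box
-/

set_option autoImplicit false
set_option linter.unusedSectionVars false
open MeasureTheory Set Filter Topology Function Metric
open scoped ContDiff InnerProductSpace RealInnerProductSpace Manifold

noncomputable section

namespace Crest.Agent.N228.W

open Crest.Agent.N222

variable {d m : ℕ} {ι : Type} [Fintype ι] {X : Type} [TopologicalSpace X]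
  {V : Type} [NormedAddCommGroup V] [NormedSpace ℝ V]

/-- a chart is locally a smooth function of the position -/
theorem exists_inv {x : X → E ι} {e : OpenPartialHomeomorph X (E (Fin d))} (he : IsChart x e)
    {p : X} (hp : p ∈ e.source) : ∃ g : E ι → E (Fin d), (∀ᶠ y in 𝓝 (x p), ContDiffAt ℝ ∞ g y) ∧
      g (x p) = e p ∧ ∀ᶠ q in 𝓝 p, g (x q) = e q := by
  set w := e p with hw
  have hwt : w ∈ e.target := e.map_source hp
  set J := fderiv ℝ (x ∘ e.symm) w with hJ
  set Φ := ContinuousLinearMap.adjoint J ∘ x ∘ e.symm with hΦ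
  have hψ : ∀ z ∈ e.target, ContDiffAt ℝ ∞ Φ z := fun z hz =>
    (ContinuousLinearMap.adjoint J).contDiff.contDiffAt.comp z
      (he.sm.contDiffAt (e.open_target.mem_nhds hz))
  have hd : ∀ z ∈ e.target, ∀ u : (E (Fin d) →L[ℝ] E (Fin d))ˣ, u = fderiv ℝ Φ z →
      HasFDerivAt Φ (ContinuousLinearEquiv.ofUnit u : E (Fin d) →L[ℝ] E (Fin d)) z :=
    fun z hz u hu => by
      have h2 : (ContinuousLinearEquiv.ofUnit u : E (Fin d) →L[ℝ] E (Fin d)) = fderiv ℝ Φ z := by
        rw [← hu]; rfl
      rw [h2]; exact ((hψ z hz).differentiableAt (by simp)).hasFDerivAt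
  have h0 : IsUnit (fderiv ℝ Φ w) := by
    have h1 := (ContinuousLinearMap.adjoint J).hasFDerivAt.comp w
      ((he.sm.contDiffAt (e.open_target.mem_nhds hwt)).differentiableAt (by simp)).hasFDerivAt
    rw [h1.fderiv]; exact isUnit_gram (he.inj w hwt)
  have hn : (∞ : WithTop ℕ∞) ≠ 0 := by simp
  obtain ⟨u, hu⟩ := id h0
  set g := (hψ w hwt).toOpenPartialHomeomorph Φ (hd w hwt u hu) hn with hg
  have hs : w ∈ g.source := (hψ w hwt).mem_toOpenPartialHomeomorph_source (hd w hwt u hu) hn
  have hgw : g w = ContinuousLinearMap.adjoint J (x p) := by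
    change Φ w = _
    simp only [hΦ, comp_apply, hw, e.left_inv hp]
  have hev : ∀ᶠ z in 𝓝 w, z ∈ e.target ∧ IsUnit (fderiv ℝ Φ z) :=
    (e.open_target.eventually_mem hwt).and
      (((hψ w hwt).fderiv_right (m := 0) (by simp)).continuousAt.eventually
        (Units.isOpen.mem_nhds h0))
  have h3 : ∀ᶠ y in 𝓝 (g w), ContDiffAt ℝ ∞ g.symm y := by
    have c1 := g.continuousAt_symm (g.map_source hs)
    rw [ContinuousAt, g.left_inv hs] at c1
    filter_upwards [g.open_target.mem_nhds (g.map_source hs), c1.eventually hev]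
      with y y1 ⟨y2, u', hu'⟩
    exact g.contDiffAt_symm y1 (hd _ y2 u' hu') (hψ _ y2)
  have h4 : ∀ᶠ q in 𝓝 p, g.symm (ContinuousLinearMap.adjoint J (x q)) = e q := by
    filter_upwards [e.open_source.mem_nhds hp, (e.continuousAt hp).eventually
      (g.open_source.mem_nhds hs)] with q q1 q2
    have := g.left_inv q2
    change g.symm (Φ (e q)) = _ at this
    simpa only [hΦ, comp_apply, e.left_inv q1] using this
  refine ⟨fun y => g.symm (ContinuousLinearMap.adjoint J y), ?_, h4.self_of_nhds, h4⟩
  rw [hgw] at h3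
  filter_upwards [(ContinuousLinearMap.adjoint J).continuous.continuousAt.eventually h3] with y hy
  exact hy.comp y (ContinuousLinearMap.adjoint J).contDiff.contDiffAt



end Crest.Agent.N228.W

end
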