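import Crest.Agent.N228.W.Defs
import Crest.Agent.N222.L.AllHt_Mg
import Crest.Agent.N222.B.Box
import Crest.Agent.N222.L.Conv
import Crest.Agent.N228.W.Lim
import Crest.Agent.N228.W.Amb
import Crest.Agent.N222.B.Mon2
import Crest.Agent.N222.B.QReg_Mg
import Crest.Agent.N222.B.Sheet
import Crest.Agent.N222.B.SSY_Mg
import Crest.Agent.N222.B.Pic

-- ▼ part N228/W/Cyl
section

/-!
# Row 228, necks (helper16): cylinder, bad set, all heights (copies of the proofs of row 222)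
-/

set_option autoImplicit false
set_option linter.unusedSectionVars false
open MeasureTheory Set Filter Topology Function Metric
open scoped ContDiff InnerProductSpace RealInnerProductSpace

noncomputable section

namespace Crest.Agent.N228

open Crest.Agent.N222

namespace W

open Lm Lm.Cy in
/-- KEY: near a point of bounded height the graphs go far up and far down. -/
theorem cyl_key (hS : SheetStmt) (hM : Mon2Stmt) (hC : CalStmt) :
    AllW fun _ _ _ _ _ _ _ _ _ _ _ M _ _ 𝒰 u => ∀ T r : ℝ, 0 < r →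
      ∀ᶠ j in (𝒰 : Filter ℕ), ∀ q, |u j q| ≤ T →
        (∃ q', ‖M.x q' - M.x q‖ < r ∧ u j q' < -T) ∧ ∃ q', ‖M.x q' - M.x q‖ < r ∧ T < u j q' := by
  intro m ι _ _ X _ _ _ _ _ _ M F h Λ 𝒰 u τ s hinj hF hseq T r hr
  obtain ⟨C1, -, h1⟩ := hS (m + 1) ι X M F hinj hF Λ
  obtain ⟨C2, hC2, h2⟩ := hC (m + 1) ι X M F hinj hF Λ
  have hρ : 0 < r / 2 := half_pos hr
  set ρ := r / 2 with hρdef
  have hρr : ρ < r := half_lt_self hr
  obtain ⟨K, hK, hG⟩ := exists_G_le (V := E (Option ι)) hρ hC2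
  have hc : 0 < cPhi (m + 1) * ρ ^ (m + 1) / Real.exp (C1 * ρ) := by
    have := EP.cPhi_pos (m + 1)
    positivity
  have hev := ((hseq.thin (T + ρ)).const_mul (K * (2 * ρ))).eventually
    (gt_mem_nhds (by simpa using hc))
  filter_upwards [hev] with j hj q hq
  have hu := (hseq.adm j).sm
  have low : cPhi (m + 1) * ρ ^ (m + 1) / Real.exp (C1 * ρ) ≤
      ∫ p, Phi (‖M.gx (u j) p - M.gx (u j) q‖ ^ 2 / ρ ^ 2) ∂M.gmu (u j) := by
    have := EP.gTh_low hM hinj hu (h1 _ (hseq.adm j)) q hρ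
    rw [Imm.gTh, ← mul_div_assoc, le_div_iff₀ (by positivity)] at this
    rw [div_le_iff₀ (Real.exp_pos _)]
    linarith
  obtain ⟨cal1, cal2⟩ := (h2 _ (hseq.adm j)).1 _ (EP.contDiff_Phi_ball (M.gx (u j) q) ρ)
    (EP.hcs_Phi _ hρ) fun y => Phi_nonneg _
  rw [abs_le] at hq
  constructor
  · by_contra hn
    push Not at hn
    have := side M hu.continuous q (T := T + ρ) hρ hC2 hK hG (fun p => Ioi (u j p))
      (fun _ => measurableSet_Ioi) fun p hp t ht h3 => by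
        have h4 := hn p (hp.trans_lt hρr)
        have h5 : u j p < t := ht
        rw [abs_le] at h3 ⊢
        constructor <;> linarith [h3.2, hq.2]
    exact absurd ((low.trans cal2).trans this) (not_le.2 hj)
  · by_contra hn
    push Not at hn
    have := side M hu.continuous q (T := T + ρ) hρ hC2 hK hG (fun p => Iic (u j p))
      (fun _ => measurableSet_Iic) fun p hp t ht h3 => by
        have h4 := hn p (hp.trans_lt hρr)
        have h5 : t ≤ u j p := ht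
        rw [abs_le] at h3 ⊢
        constructor <;> linarith [h3.1, hq.1]
    exact absurd ((low.trans cal1).trans this) (not_le.2 hj)

theorem cyl_of (hS : SheetStmt) (hM : Mon2Stmt) (hC : CalStmt) : WCylStmt := by
  intro m ι _ _ X _ _ _ _ _ _ M F h Λ 𝒰 u τ s hinj hF hseq
  have key := cyl_key hS hM hC m ι X M F h Λ 𝒰 u τ s hinj hF hseq
  have tri : ∀ {p q q' : X} {r : ℝ}, ‖M.x q - M.x p‖ < r / 2 → ‖M.x q' - M.x q‖ < r / 2 →
      ‖M.x q' - M.x p‖ < r := fun {p q q' r} h1 h2 => by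
    linarith [norm_sub_le_norm_sub_add_norm_sub (M.x q') (M.x q) (M.x p)]
  constructor
  · intro p hp t N hN
    haveI := M.locallyConnected
    obtain ⟨N1, h1, c1, s1⟩ := locallyConnectedSpace_iff_connected_subsets.1 inferInstance p N hN
    obtain ⟨r, hr, b1⟩ := (Imm.mem_nhds_iff_ball hinj).1 h1
    obtain ⟨N2, h2, c2, s2⟩ := locallyConnectedSpace_iff_connected_subsets.1 inferInstance p
      {q | ‖M.x q - M.x p‖ < r / 2} ((Imm.mem_nhds_iff_ball hinj).2 ⟨_, half_pos hr, fun _ h => h⟩)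
    have hp1 : ¬ ∀ᶠ j in (𝒰 : Filter ℕ), ∀ q ∈ N2, 0 < u j q := fun h =>
      hp (Or.inl ⟨N2, h2, h⟩)
    have hp2 : ¬ ∀ᶠ j in (𝒰 : Filter ℕ), ∀ q ∈ N2, 0 < -u j q := fun h =>
      hp (Or.inr ⟨N2, h2, h⟩)
    filter_upwards [Ultrafilter.eventually_not.2 hp1, Ultrafilter.eventually_not.2 hp2,
      key |t| (r / 2) (half_pos hr)] with j e1 e2 e3
    push Not at e1 e2
    obtain ⟨a, ha, ha0⟩ := e1
    obtain ⟨b, hb, hb0⟩ := e2
    have hu := (hseq.adm j).sm.continuous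
    obtain ⟨q0, hq0, h0⟩ := c2.intermediate_value ha hb hu.continuousOn
      (⟨ha0, by linarith⟩ : (0 : ℝ) ∈ Icc (u j a) (u j b))
    obtain ⟨⟨q1, d1, l1⟩, q2, d2, l2⟩ := e3 q0 (by rw [h0, abs_zero]; exact abs_nonneg t)
    obtain ⟨q, hq, ht⟩ := c1.intermediate_value (b1 q1 (tri (s2 hq0) d1))
      (b1 q2 (tri (s2 hq0) d2)) hu.continuousOn
      (⟨by linarith [neg_abs_le t], by linarith [le_abs_self t]⟩ : t ∈ Icc (u j q1) (u j q2))
    exact ⟨q, s1 hq, ht⟩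
  · intro p hp T
    have hp' : p ∈ Upos 𝒰 u ∪ Upos 𝒰 fun j q => -u j q := not_not.1 hp
    have main : ∀ N ∈ 𝓝 p, (∀ᶠ j in (𝒰 : Filter ℕ), (∀ q ∈ N, 0 < u j q) ∨ ∀ q ∈ N, 0 < -u j q) →
        ∃ N ∈ 𝓝 p, ∀ᶠ j in (𝒰 : Filter ℕ), ∀ q ∈ N, T < |u j q| := fun N hN he => by
      obtain ⟨r, hr, b⟩ := (Imm.mem_nhds_iff_ball hinj).1 hN
      refine ⟨{q | ‖M.x q - M.x p‖ < r / 2},
        (Imm.mem_nhds_iff_ball hinj).2 ⟨_, half_pos hr, fun _ h => h⟩, ?_⟩
      filter_upwards [he, key |T| (r / 2) (half_pos hr)] with j e1 e2 q hq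
      by_contra hn
      obtain ⟨⟨q1, d1, l1⟩, q2, d2, l2⟩ := e2 q ((not_lt.1 hn).trans (le_abs_self T))
      rcases e1 with e1 | e1
      · linarith [e1 q1 (b q1 (tri hq d1)), abs_nonneg T]
      · linarith [e1 q2 (b q2 (tri hq d2)), abs_nonneg T]
    rcases hp' with ⟨N, hN, he⟩ | ⟨N, hN, he⟩
    · exact main N hN (he.mono fun j h => Or.inl h)
    · exact main N hN (he.mono fun j h => Or.inr h)

open Lm in
/-- curvature concentrates at every scale at a point that is not regular -/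
theorem conc (hW : W2Stmt) (hF : FLStmt) (hC : CalStmt) :
    AllW fun m _ _ _ _ _ _ _ _ _ _ M _ _ 𝒰 u => ∃ c : ℝ, 0 < c ∧ ∀ p t, ¬ M.Reg 𝒰 u p t →
      ∀ r : ℝ, 0 < r → r ≤ 1 → ∀ᶠ j in (𝒰 : Filter ℕ), c * r ^ (m + 1) ≤
        r ^ 4 * ∫ q in {q | ‖M.gx (u j) q - up t (M.x p)‖ ≤ r / 3}, M.a2 (u j) q ^ 2 ∂M.gmu (u j) := by
  intro m ι _ _ X _ _ _ _ _ _ M F h Λ 𝒰 u τ s hM hFs hseq
  obtain ⟨ε, θ, C, hε, hθ, hW2⟩ := hW _ _ _ M F hM hFs Λ (1 / 100) (by norm_num)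
  obtain ⟨R, η, hR, hη, hFL⟩ := hF _ _ _ M F hM hFs Λ ε hε
  obtain ⟨C0, hC0, hCal⟩ := hC _ _ _ M F hM hFs Λ
  set k := min (min ε η) (1 / (3 * (R + 1))) with hk
  have hk0 : 0 < k := by positivity
  have hk1 : k * (3 * (R + 1)) ≤ 1 := (le_div_iff₀ (by positivity)).1 (min_le_right _ _)
  have hkε : k ≤ ε := (min_le_left _ _).trans (min_le_left _ _)
  have hkη : k ≤ η := (min_le_left _ _).trans (min_le_right _ _)
  have hk2 : k ≤ 1 := by nlinarith
  refine ⟨η ^ 2 * k ^ (m + 1) / ((C0 + 1) * R ^ (m + 1)), by positivity, fun p t hp r hr hr1 => ?_⟩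
  have hr' : 0 < k * r := by positivity
  have hkr : k * r ≤ k := mul_le_of_le_one_right hk0.le hr1
  have h1 : ¬ ∀ᶠ j in (𝒰 : Filter ℕ), M.Flat ε (u j) (up t (M.x p)) (k * r) := fun h1 =>
    hp ⟨θ * (k * r), C / (k * r) ^ 2, by positivity, h1.mono fun j hj q q' hq hq' => by
      obtain ⟨h2, h3⟩ := hW2 _ (hseq.adm j) _ _ hr' (hkr.trans hkε) hj q q' hq hq'
      exact ⟨(le_div_iff₀' (by positivity)).2 h2, h3⟩⟩
  filter_upwards [Ultrafilter.eventually_not.2 h1] with j hj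
  have hu := (hseq.adm j).sm
  have := Imm.isFiniteMeasure_gmu hu
  simp only [Imm.Flat, not_forall, not_le] at hj
  obtain ⟨q, hq, hq'⟩ := hj
  have h2 := lt_of_not_ge fun h2 =>
    (hFL _ (hseq.adm j) q _ hr' (hkr.trans hkη) h2).not_gt hq'
  have h3 := (hCal _ (hseq.adm j)).2.1 (M.gx (u j) q) (R * (k * r)) (by positivity) (by nlinarith)
  have hi2 := EP.integrable_gmu hu (hu.a2.continuous.pow 2)
  have h4 : ∫ q' in {q' | ‖M.gx (u j) q' - M.gx (u j) q‖ ≤ R * (k * r)}, M.a2 (u j) q' ^ 2 ∂M.gmu (u j)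
      ≤ ∫ q' in {q' | ‖M.gx (u j) q' - up t (M.x p)‖ ≤ r / 3}, M.a2 (u j) q' ^ 2 ∂M.gmu (u j) := by
    refine setIntegral_mono_set hi2.integrableOn (.of_forall fun _ => sq_nonneg _)
      (LE.le.eventuallyLE fun q' hq' => ?_)
    have h5 := norm_sub_le_norm_sub_add_norm_sub (M.gx (u j) q') (M.gx (u j) q) (up t (M.x p))
    have h6 : ‖M.gx (u j) q' - M.gx (u j) q‖ ≤ R * (k * r) := hq'
    have h7 := mul_le_mul_of_nonneg_right hk1 hr.le
    show _ ≤ r / 3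
    nlinarith
  set l := (k * r) ^ 2 * ((C0 + 1) * R ^ (m + 1)) / (2 * η) with hl
  have hl0 : 0 < l := by positivity
  have h5 := setIntegral_mono (s := {q' | ‖M.gx (u j) q' - M.gx (u j) q‖ ≤ R * (k * r)})
    (EP.integrable_gmu hu hu.a2.continuous).integrableOn
    ((hi2.const_mul l).add (integrable_const (1 / (4 * l)))).integrableOn fun q' => by
      have e1 : l * M.a2 (u j) q' ^ 2 + 1 / (4 * l) - M.a2 (u j) q' =
          (2 * l * M.a2 (u j) q' - 1) ^ 2 / (4 * l) := by field_simp; ring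
      have e2 : 0 ≤ (2 * l * M.a2 (u j) q' - 1) ^ 2 / (4 * l) := by positivity
      show _ ≤ l * M.a2 (u j) q' ^ 2 + 1 / (4 * l)
      linarith
  simp only [Pi.add_apply] at h5
  rw [integral_add (hi2.const_mul l).integrableOn (integrable_const _), integral_const_mul,
    setIntegral_const, smul_eq_mul] at h5
  exact conc_aux hη hC0 (by linarith) hk0 hk2 hr hl h2 h3 h4 h5
    (integral_nonneg fun _ => sq_nonneg _)

theorem net_of (hW : W2Stmt) (hF : FLStmt) (hY : SSYStmt) (hC : CalStmt) : WNetStmt := by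
  intro m ι _ _ X _ _ _ _ _ _ M F h Λ 𝒰 u τ s hM hFs hseq
  obtain ⟨c, hc, hconc⟩ := conc hW hF hC m ι X M F h Λ 𝒰 u τ s hM hFs hseq
  obtain ⟨C, hSSY⟩ := hY _ _ _ M F hM hFs Λ 2
  refine ⟨Lm.isClosed_Bad M 𝒰 u, C / c, fun r hr hr1 => ?_⟩
  have key : ∀ S : Finset X, (∀ p ∈ S, p ∈ M.Bad 𝒰 u) →
      (∀ p ∈ S, ∀ q ∈ S, p ≠ q → r < ‖M.x p - M.x q‖) → (S.card : ℝ) * r ^ m ≤ C / c * r ^ 4 := by
    intro S hS hsep
    set n := ⌈1 / r⌉₊ with hn
    have hn1 : 1 ≤ n * r := (div_le_iff₀ hr).1 (Nat.le_ceil _)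
    have hn2 : ∀ i ∈ Finset.range n, (i : ℝ) * r ≤ 1 := fun i hi =>
      (le_div_iff₀ hr).1 (Nat.lt_ceil.1 (Finset.mem_range.1 hi)).le
    obtain ⟨j, hj⟩ := ((eventually_all_finset (S ×ˢ Finset.range n)).2 fun z hz =>
      hconc z.1 (z.2 * r) ((hS _ (Finset.mem_product.1 hz).1).2 _) r hr hr1).exists
    have hu := (hseq.adm j).sm
    have hi2 := EP.integrable_gmu hu (hu.a2.continuous.pow 2)
    let A : X × ℕ → Set X := fun z => {q | ‖M.gx (u j) q - up (z.2 * r) (M.x z.1)‖ ≤ r / 3}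
    have hA : ∀ z, MeasurableSet (A z) := fun z =>
      (isClosed_le ((Imm.sm_gx hu).continuous.sub continuous_const).norm
        continuous_const).measurableSet
    have hdis : Set.Pairwise (↑(S ×ˢ Finset.range n)) (Disjoint on A) := by
      intro z hz z' hz' hne
      refine Set.disjoint_left.2 fun q hq hq' => ?_
      have e1 : ‖M.gx (u j) q - up (z.2 * r) (M.x z.1)‖ ≤ r / 3 := hq
      have e2 : ‖M.gx (u j) q - up (z'.2 * r) (M.x z'.1)‖ ≤ r / 3 := hq'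
      have e3 := norm_sub_le_norm_sub_add_norm_sub (up (z.2 * r) (M.x z.1)) (M.gx (u j) q)
        (up (z'.2 * r) (M.x z'.1))
      rw [norm_sub_rev _ (M.gx (u j) q)] at e3
      by_cases e4 : z.1 = z'.1
      · have e5 : z.2 ≠ z'.2 := fun e5 => hne (Prod.ext e4 e5)
        have e6 := abs_none_le (up (z.2 * r) (M.x z.1) - up (z'.2 * r) (M.x z'.1))
        rw [up_sub, up_none, ← up_sub, ← sub_mul, abs_mul, abs_of_pos hr] at e6
        have e7 : (1 : ℝ) ≤ |(z.2 : ℝ) - z'.2| := by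
          have : (1 : ℤ) ≤ |(z.2 : ℤ) - z'.2| := Int.one_le_abs (sub_ne_zero.2 (by exact_mod_cast e5))
          exact_mod_cast this
        nlinarith
      · have e5 := hsep _ (Finset.mem_product.1 hz).1 _ (Finset.mem_product.1 hz').1 e4
        have e6 := norm_down_le (up (z.2 * r) (M.x z.1) - up (z'.2 * r) (M.x z'.1))
        rw [down_sub, down_up, down_up] at e6
        linarith
    have h1 := integral_biUnion_finset (S ×ˢ Finset.range n) (fun z _ => hA z) hdis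
      fun z _ => hi2.integrableOn
    have h2 : ∫ q in ⋃ z ∈ S ×ˢ Finset.range n, A z, M.a2 (u j) q ^ 2 ∂M.gmu (u j) ≤ C := by
      refine le_trans (setIntegral_mono_set hi2.integrableOn (.of_forall fun _ => sq_nonneg _)
        (LE.le.eventuallyLE fun q hq => ?_)) (hSSY _ (hseq.adm j))
      obtain ⟨z, hz, hq⟩ := mem_iUnion₂.1 hq
      have e1 := (Imm.abs_u_sub_le (u j) q _).trans hq
      have e2 := hn2 _ (Finset.mem_product.1 hz).2
      have e3 : 0 ≤ (z.2 : ℝ) * r := by positivity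
      rw [up_none, abs_le] at e1
      show |u j q| ≤ 2
      rw [abs_le]; constructor <;> linarith [e1.1, e1.2]
    have h3 := Finset.sum_le_sum hj
    rw [Finset.sum_const, Finset.card_product, Finset.card_range, nsmul_eq_mul, ← Finset.mul_sum]
      at h3
    have h4 : ((S.card * n : ℕ) : ℝ) * (c * r ^ (m + 1)) ≤ r ^ 4 * C :=
      h3.trans (mul_le_mul_of_nonneg_left (h1.symm.le.trans h2) (by positivity))
    have h5 : (S.card : ℝ) * r ^ m * c * 1 ≤ S.card * r ^ m * c * (n * r) :=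
      mul_le_mul_of_nonneg_left hn1 (by positivity)
    rw [div_mul_eq_mul_div, le_div_iff₀ hc]
    push_cast at h4
    rw [pow_succ] at h4
    linarith
  obtain ⟨S, h1, h2, h3⟩ := Lm.exists_net M.x (M.Bad 𝒰 u) hr (C / c * r ^ 4 / r ^ m)
    fun S h1 h2 => (le_div_iff₀ (by positivity)).2 (key S h1 h2)
  exact ⟨S, h1, key S h1 h2, h3⟩

theorem allHt_of (hC : WCylStmt) (hB : WBoxStmt) (hF : FL2Stmt) (hW : W2Stmt) : WAllHtStmt := by
  intro m ι _ _ X _ _ _ _ _ _ M F h Λ 𝒰 u τ s hM hFs hq p hp t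
  obtain ⟨t0, ht0⟩ : ∃ t0, M.Reg 𝒰 u p t0 := by
    by_contra! H
    exact hp.2 ⟨hp.1, H⟩
  obtain ⟨e, ρ, c, B⟩ := hB m ι X M F h Λ 𝒰 u τ s hM hFs hq p hp.1 t0 ht0
  obtain ⟨f, hf, hfe⟩ : ∃ f : X → ℝ, M.Sm f ∧ ∀ᶠ q in 𝓝 p, f q = e q 0 :=
    ((Imm.smOn_chart B.ch).comp (g := fun z => z 0) fun _ _ =>
      (EuclideanSpace.proj (𝕜 := ℝ) (0 : Fin (m + 1))).contDiff.contDiffAt).exists_sm_at
      e.open_source B.mem
  have hg : 0 < ‖M.grad f p‖ := norm_pos_iff.2 fun h0 => by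
    have h1 : f ∘ e.symm =ᶠ[𝓝 (e p)] EuclideanSpace.proj (𝕜 := ℝ) (0 : Fin (m + 1)) :=
      (symm_eventuallyEq B.mem hfe).trans
        ((e.open_target.eventually_mem (e.map_source B.mem)).mono fun z hz => by
          simp [e.right_inv hz])
    have h2 := congrArg (fun T : E (Fin (m + 1)) →L[ℝ] ℝ => T (ee 0)) (Imm.fderiv_chart f B.ch B.mem)
    rw [h1.fderiv_eq, ContinuousLinearMap.fderiv] at h2
    simp [Imm.td_eq_inner, h0] at h2
  set n := ‖M.grad f p‖⁻¹ • M.grad f p with hn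
  have hn1 : ‖n‖ = 1 := norm_smul_inv_norm (norm_pos_iff.1 hg)
  have hup : ∀ y : E ι, ‖up 0 y‖ = ‖y‖ := fun y =>
    (sq_eq_sq₀ (norm_nonneg _) (norm_nonneg _)).1 (by rw [norm_sq_up]; ring)
  have hN : ∀ᶠ q in 𝓝 p, 1 / 2 ≤ ‖M.PL q n‖ :=
    ((M.sm_PL.continuous.clm_apply continuous_const).norm.tendsto p).eventually_const_le
      (by rw [hn, map_smul, Imm.PL_grad, ← hn, hn1]; norm_num)
  obtain ⟨r1, hr1, h1⟩ := (Imm.mem_nhds_iff_ball hM).1
    (((e.open_source.eventually_mem B.mem).and hfe).and hN)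
  obtain ⟨ε, θ, C, hε, hθ, hW'⟩ := hW _ ι X M F hM hFs Λ (1 / 100) (by norm_num)
  obtain ⟨R, η, hR, hη, hF'⟩ := hF _ ι X M F hM hFs Λ ε hε
  obtain ⟨C1, hC1, hT⟩ := hf.exists_taylor hM
  have hev : ∀ A b : ℝ, 0 < b → ∀ᶠ r in 𝓝[>] (0 : ℝ), A * r < b := fun A b hb =>
    ((tendsto_id.mono_left nhdsWithin_le_nhds).const_mul A).eventually_lt_const (by simpa using hb)
  obtain ⟨r, ⟨⟨⟨r2, r3⟩, r4⟩, r5⟩, hr⟩ := (((((hev 1 ε hε).and (hev 1 η hη)).and
    (hev (R + 1) r1 hr1)).and (hev (C1 * (R + 1) ^ 2) (η * ‖M.grad f p‖ / 4) (by positivity))).and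
    self_mem_nhdsWithin).exists
  replace hr : 0 < r := hr
  rw [one_mul] at r2 r3
  have hK : IsCompact {q | ‖M.x q - M.x p‖ ≤ (R + 1) * r ∧ η * r * ‖M.grad f p‖ / 4 ≤ |f q|} :=
    ((isClosed_le (M.continuous_x.sub continuous_const).norm continuous_const).inter
      (isClosed_le continuous_const hf.continuous.abs)).isCompact
  have hev2 : ∀ᶠ j in (𝒰 : Filter ℕ), ∀ q ∈ {q | ‖M.x q - M.x p‖ ≤ (R + 1) * r ∧
      η * r * ‖M.grad f p‖ / 4 ≤ |f q|}, |t| + (R + 1) * r < |u j q| := by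
    refine hK.induction_on
      (p := fun S => ∀ᶠ j in (𝒰 : Filter ℕ), ∀ q ∈ S, |t| + (R + 1) * r < |u j q|) (by simp)
      (fun S S' hS h => h.mono fun j hj q hq => hj q (hS hq))
      (fun S S' h h' => (h.and h').mono fun j hj q hq => hq.elim (hj.1 q) (hj.2 q)) fun q hq' => ?_
    obtain ⟨⟨q1, q2⟩, -⟩ := h1 q (hq'.1.trans_lt r4)
    obtain ⟨N, hN, h⟩ := (hC m ι X M F h Λ 𝒰 u τ s hM hFs hq).2 q (fun hS => by
      have h2 := hq'.2
      rw [q2, (B.slice q q1).1 hS, abs_zero] at h2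
      exact h2.not_gt (by positivity)) (|t| + (R + 1) * r)
    exact ⟨N, mem_nhdsWithin_of_mem_nhds hN, h⟩
  refine ⟨θ * r, C / r ^ 2, by positivity, hev2.mono fun j hj q q' h2 h3 => ?_⟩
  suffices H : M.Flat ε (u j) (up t (M.x p)) r by
    have := hW' _ (hq.adm j) _ r hr r2.le H q q' h2 h3
    exact ⟨by rw [le_div_iff₀ (by positivity), mul_comm]; exact this.1, this.2⟩
  have hA : ∀ q, ‖M.gx (u j) q - up t (M.x p)‖ ≤ (R + 1) * r → ‖M.x q - M.x p‖ ≤ (R + 1) * r ∧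
      |⟪M.grad f p, M.x q - M.x p⟫ + f p| ≤ η * r * ‖M.grad f p‖ / 2 := fun q hq => by
    have a1 := (Imm.norm_x_sub_le (u j) q _).trans hq
    have a2 := (Imm.abs_u_sub_le (u j) q _).trans hq
    rw [down_up] at a1
    rw [up_none] at a2
    have a3 : |f q| < η * r * ‖M.grad f p‖ / 4 := not_le.1 fun h =>
      (hj q ⟨a1, h⟩).not_ge (by linarith [abs_sub_abs_le_abs_sub (u j q) t])
    have a4 := (hT p q).trans (mul_le_mul_of_nonneg_left
      (pow_le_pow_left₀ (norm_nonneg _) a1 2) hC1.le)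
    rw [Imm.td_eq_inner, Real.norm_eq_abs] at a4
    have a5 := mul_le_mul_of_nonneg_right r5.le hr.le
    refine ⟨a1, abs_le.2 ⟨?_, ?_⟩⟩ <;> linarith [abs_le.1 a4, abs_lt.1 a3]
  intro q hq'
  have b1 := hA q (hq'.le.trans (by nlinarith))
  refine hF' _ (hq.adm j) q r hr r3.le (up 0 n) ((hup n).trans hn1) ?_ fun q' hq'' => ?_
  · rw [Imm.PbL, up_none, down_up, hup]
    exact (h1 q (b1.1.trans_lt r4)).2
  have b2 := hA q' (by
    linarith [norm_sub_le_norm_sub_add_norm_sub (M.gx (u j) q') (M.gx (u j) q) (up t (M.x p))])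
  rw [Imm.gx, Imm.gx, up_sub, inner_up, zero_mul, zero_add, hn, real_inner_smul_left, abs_mul,
    abs_of_pos (inv_pos.2 hg), inv_mul_le_iff₀ hg, ← sub_sub_sub_cancel_right _ _ (M.x p),
    inner_sub_right]
  refine abs_le.2 ⟨?_, ?_⟩ <;> linarith [abs_le.1 b1.2, abs_le.1 b2.2]

end W

end Crest.Agent.N228

end
end

-- ▼ part N228/W/Box
section

/-!
# Row 228, necks (helper16): local graphs (copies of the proofs of row 222)
-/

set_option autoImplicit false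
set_option linter.unusedSectionVars false
open MeasureTheory Set Filter Topology Function Metric
open scoped ContDiff InnerProductSpace RealInnerProductSpace

noncomputable section

namespace Crest.Agent.N228

open Crest.Agent.N222

namespace W

open Bx

variable {m : ℕ} {ι : Type} [Fintype ι] [DecidableEq ι] {X : Type} [TopologicalSpace X]
  [T2Space X] [SecondCountableTopology X] [MeasurableSpace X] [BorelSpace X] [CompactSpace X]

theorem exists_cone' (hCyl : WCylStmt) (hMon2 : Mon2Stmt) (hSh : SheetStmt) {M : Imm (m + 1) ι X}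
    {F h : X → ℝ} {Λ : ℝ} {𝒰 : Ultrafilter ℕ} {u : ℕ → X → ℝ} {τ s : ℕ → ℝ} (hM : Injective M.x)
    (hF : M.Sm F) (hu : WSeq M F h Λ 𝒰 u τ s) {p : X} (hp : p ∈ Sb 𝒰 u) {t : ℝ}
    (hr : M.Reg 𝒰 u p t) :
    ∃ (e : OpenPartialHomeomorph X (E (Fin (m + 1)))) (R δ C : ℝ), IsChart M.x e ∧ p ∈ e.source ∧
      e p = 0 ∧ 0 < R ∧ 0 < δ ∧ closedBall 0 (2 * R) ⊆ e.target ∧
      ∀ᶠ j in (𝒰 : Filter ℕ), Cone (fun y => u j (e.symm y) - t) R δ ∧
        ∀ y ∈ ball (0 : E (Fin (m + 1))) (2 * R), |u j (e.symm y) - t| < δ →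
          M.a2 (u j) (e.symm y) ≤ C := by
  obtain ⟨ρ0, C0, hρ0, hreg⟩ := hr
  obtain ⟨C, -, hC⟩ := hSh _ ι X M F hM hF Λ
  obtain ⟨ρ1, hρ1, hP⟩ := (Imm.mem_nhds_iff_ball hM).1
    (M.sm_PL.continuous.continuousAt (x := p) (ball_mem_nhds (M.PL p) (ε := 1 / 100) (by norm_num)))
  set r := min ρ0 ρ1 / 2 with hrdef
  have hr0 : 0 < r := by positivity
  have hr1 : 2 * r ≤ ρ0 := by have := min_le_left ρ0 ρ1; linarith
  have hr2 : 2 * r ≤ ρ1 := by have := min_le_right ρ0 ρ1; linarith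
  have hN : {q | ‖M.x q - M.x p‖ < r} ∈ 𝓝 p := (Imm.mem_nhds_iff_ball hM).2 ⟨r, hr0, fun _ h => h⟩
  have h1 := (hCyl m ι X M F h Λ 𝒰 u τ s hM hF hu).1 p hp t _ hN
  have hpos : 0 < 1 / 100 * (cPhi (m + 1) * Real.exp (-(C * r)) * r ^ (m + 1)) := by
    have := cPhi_pos (m + 1); positivity
  have h2 := (hu.thin (|t| + r)).eventually (gt_mem_nhds hpos)
  have h3 : ∀ᶠ j in (𝒰 : Filter ℕ), ∃ q', ‖M.gx (u j) q' - up t (M.x p)‖ < 2 * r ∧
      M.vv (u j) q' < 1 / 100 := by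
    filter_upwards [h1, h2] with j ⟨q, hq, hqt⟩ hj
    obtain ⟨q', hq', hv⟩ := exists_small_v hMon2 hM (hu.adm j).sm (hC _ (hu.adm j)) q hr0
      (ε := 1 / 100) (by norm_num) (by rw [hqt]; exact hj)
    refine ⟨q', ?_, hv⟩
    have h4 : ‖M.gx (u j) q - up t (M.x p)‖ < r := by
      rw [Imm.gx, hqt, up_sub, sub_self]
      exact (norm_up_le _ _).trans_lt (by simpa using hq)
    have := norm_sub_le_norm_sub_add_norm_sub (M.gx (u j) q') (M.gx (u j) q) (up t (M.x p))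
    linarith
  obtain ⟨q', hq'⟩ := h3.choice
  obtain ⟨n, -, hn⟩ := (isCompact_closedBall (0 : E (Option ι)) 1).ultrafilter_le_nhds
    (𝒰.map fun j => M.nuv (u j) (q' j)) (by
      rw [Ultrafilter.coe_map, le_principal_iff, mem_map]
      exact Eventually.of_forall fun j => by simp [Imm.norm_nuv (hu.adm j).sm])
  have hn' : ∀ᶠ j in (𝒰 : Filter ℕ), ‖M.nuv (u j) (q' j) - n‖ < 1 / 100 := by
    simpa only [dist_eq_norm] using Metric.tendsto_nhds.1 hn (1 / 100) (by norm_num)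
  -- all normals in the box are close to `n`
  have h5 : ∀ᶠ j in (𝒰 : Filter ℕ), ∀ q, ‖M.gx (u j) q - up t (M.x p)‖ < ρ0 →
      M.a2 (u j) q ≤ C0 ∧ M.vv (u j) q ≤ 2 / 100 ∧
        ‖M.vv (u j) q • M.grad (u j) q + down n‖ ≤ 2 / 100 := by
    filter_upwards [hreg, hq', hn'] with j hj hj1 hj2 q hq
    obtain ⟨a1, a2⟩ := hj q (q' j) hq (hj1.1.trans_le hr1)
    refine ⟨a1, ?_, ?_⟩
    · have : |M.vv (u j) q - M.vv (u j) (q' j)| ≤ _ :=
        abs_none_le (M.nuv (u j) q - M.nuv (u j) (q' j))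
      linarith [(abs_le.1 this).2, hj1.2]
    · have := norm_down_le (M.nuv (u j) q - n)
      rw [down_sub, down_nuv, ← neg_add', norm_neg] at this
      linarith [norm_sub_le_norm_sub_add_norm_sub (M.nuv (u j) q) (M.nuv (u j) (q' j)) n]
  have hX1 : ∀ j q, ‖M.vv (u j) q • M.grad (u j) q‖ ≤ 1 := fun j q => by
    have := norm_down_le (M.nuv (u j) q)
    rwa [down_nuv, norm_neg, Imm.norm_nuv (hu.adm j).sm] at this
  have hX2 : ∀ j q, 1 - M.vv (u j) q ≤ ‖M.vv (u j) q • M.grad (u j) q‖ := fun j q => by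
    have := norm_up_le (M.nuv (u j) q none) (down (M.nuv (u j) q))
    rw [up_down, down_nuv, norm_neg, Imm.norm_nuv (hu.adm j).sm] at this
    have h6 : |M.nuv (u j) q none| = M.vv (u j) q := abs_of_pos (M.vv_pos _ _)
    linarith
  set b := M.PL p (-down n) with hb
  have hb1 : ‖b + down n‖ ≤ 5 / 100 ∧ 93 / 100 ≤ ‖b‖ ∧ ‖b‖ ≤ 103 / 100 := by
    obtain ⟨j, hj1, hj2⟩ := (hq'.and h5).exists
    obtain ⟨-, a1, a2⟩ := hj2 (q' j) (hj1.1.trans_le hr1)
    set Y := M.vv (u j) (q' j) • M.grad (u j) (q' j) with hY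
    have hYt : M.PL (q' j) Y = Y := by rw [hY, map_smul, Imm.PL_grad]
    have a3 : ‖M.PL (q' j) - M.PL p‖ < 1 / 100 := by
      have := hP (q' j) ((Imm.norm_x_sub_le (u j) (q' j) (up t (M.x p))).trans_lt
        (hj1.1.trans_le hr2))
      rwa [mem_preimage, mem_ball, dist_eq_norm] at this
    have a4 : ‖Y - M.PL p Y‖ ≤ 1 / 100 := by
      have := (M.PL (q' j) - M.PL p).le_opNorm Y
      rw [sub_apply, hYt] at this
      nlinarith [hX1 j (q' j), norm_nonneg Y, norm_nonneg (M.PL (q' j) - M.PL p)]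
    have a5 : ‖M.PL p Y - b‖ ≤ 2 / 100 := by
      rw [hb, ← map_sub, sub_neg_eq_add]; exact (M.norm_PL_le p _).trans a2
    have a6 : ‖Y - b‖ ≤ 3 / 100 := by linarith [norm_sub_le_norm_sub_add_norm_sub Y (M.PL p Y) b]
    have a7 := hX1 j (q' j)
    have a8 := hX2 j (q' j)
    have a9 := abs_le.1 ((abs_norm_sub_norm_le Y b).trans a6)
    refine ⟨?_, by linarith [a9.2], by linarith [a9.1]⟩
    have : b + down n = Y + down n - (Y - b) := by abel
    rw [this]; linarith [norm_sub_le (Y + down n) (Y - b)]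
  obtain ⟨hb1, hb2, hb3⟩ := hb1
  have hb0 : 0 < ‖b‖ := by linarith
  have hξ : ‖‖b‖⁻¹ • b‖ = 1 := by rw [norm_smul, norm_inv, norm_norm, inv_mul_cancel₀ hb0.ne']
  have hξb : ‖b - ‖b‖⁻¹ • b‖ ≤ 7 / 100 := by
    have : b - ‖b‖⁻¹ • b = (‖b‖ - 1) • ‖b‖⁻¹ • b := by
      rw [sub_smul, one_smul, smul_smul, mul_inv_cancel₀ hb0.ne', one_smul]
    rw [this, norm_smul, hξ, mul_one, Real.norm_eq_abs, abs_le]
    constructor <;> linarith
  obtain ⟨e, L, he, hpe, he0, hL, hD⟩ := exists_chart_dir M p hξ (by rw [map_smul, hb, M.PL_PL])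
  have ht : e.target ∈ 𝓝 (0 : E (Fin (m + 1))) := he0 ▸ e.open_target.mem_nhds (e.map_source hpe)
  have hc := he.sm.contDiffAt ht
  have hs0 : e.symm 0 = p := by rw [← he0, e.left_inv hpe]
  have hev : ∀ᶠ y in 𝓝 (0 : E (Fin (m + 1))), y ∈ e.target ∧ ‖M.x (e.symm y) - M.x p‖ < ρ0 / 2 ∧
      ‖fderiv ℝ (M.x ∘ e.symm) y - L.toContinuousLinearMap‖ < 1 / 5 := by
    have b1 := Metric.tendsto_nhds.1 hc.continuousAt (ρ0 / 2) (by positivity)
    have b2 := Metric.tendsto_nhds.1 (hc.fderiv_right (m := 0) (by simp)).continuousAt (1 / 5)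
      (by norm_num)
    filter_upwards [ht, b1, b2] with y y1 y2 y3
    rw [dist_eq_norm] at y2 y3
    exact ⟨y1, by simpa [hs0] using y2, by rwa [hD] at y3⟩
  obtain ⟨R, hR, hRs⟩ := nhds_basis_closedBall.eventually_iff.1 hev
  have hR2 : 2 * (R / 2) = R := by ring
  refine ⟨e, R / 2, ρ0 / 2, C0, he, hpe, he0, by positivity, by positivity,
    fun y hy => (hRs (hR2 ▸ hy)).1, ?_⟩
  filter_upwards [h5] with j hj
  have key : ∀ y ∈ ball (0 : E (Fin (m + 1))) (2 * (R / 2)), |u j (e.symm y) - t| < ρ0 / 2 →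
      ‖M.gx (u j) (e.symm y) - up t (M.x p)‖ < ρ0 := fun y hy hyt => by
    have := (hRs (ball_subset_closedBall (hR2 ▸ hy))).2.1
    rw [Imm.gx, up_sub]
    linarith [norm_up_le (u j (e.symm y) - t) (M.x (e.symm y) - M.x p)]
  refine ⟨fun y hy hyt η hη => ?_, fun y hy hyt => (hj _ (key y hy hyt)).1⟩
  obtain ⟨y1, -, y3⟩ := hRs (ball_subset_closedBall (hR2 ▸ hy))
  obtain ⟨-, a1, a2⟩ := hj _ (key y hy hyt)
  have a3 : ‖M.vv (u j) (e.symm y) • M.grad (u j) (e.symm y) - ‖b‖⁻¹ • b‖ ≤ 1 / 5 := by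
    set Y := M.vv (u j) (e.symm y) • M.grad (u j) (e.symm y)
    have : Y - ‖b‖⁻¹ • b = Y + down n - (b + down n) + (b - ‖b‖⁻¹ • b) := by abel
    rw [this]
    linarith [norm_add_le (Y + down n - (b + down n)) (b - ‖b‖⁻¹ • b),
      norm_sub_le (Y + down n) (b + down n)]
  have a4 := cone_ineq hL (hX1 j _) a3 y3.le hη
  have a5 : fderiv ℝ (fun y => u j (e.symm y) - t) y η =
      ⟪M.grad (u j) (e.symm y), fderiv ℝ (M.x ∘ e.symm) y η⟫ := by
    have := Imm.fderiv_chart (u j) he (e.map_target y1)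
    rw [e.right_inv y1] at this
    rw [fderiv_sub_const, ← Imm.td_eq_inner]
    exact congrArg (fun T : _ →L[ℝ] ℝ => T η) this
  rw [a5]
  rw [real_inner_smul_left] at a4
  have a6 := M.vv_pos (u j) (e.symm y)
  have a7 : 0 ≤ η 0 := (norm_nonneg _).trans hη
  by_contra hlt
  push Not at hlt
  nlinarith

variable {M : Imm (m + 1) ι X} {e : OpenPartialHomeomorph X (E (Fin (m + 1)))}

/-- estimates of all orders -/
theorem all_bounds' (hQ : QRegStmt) (he : IsChart M.x e) {F h : X → ℝ} (hF : M.Sm F) (hh : M.Sm h)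
    {R ρ t C : ℝ} (hρ : 0 < ρ) (hR : 8 * ρ ≤ R) (hsub : closedBall 0 (2 * R) ⊆ e.target) (k : ℕ) :
    ∃ B : ℝ, ∀ (u : X → ℝ) c w (l : ℝ × ℝ), GC M u e c w t ρ → (∀ z ∈ ball 0 ρ, |w z| ≤ R / 2) →
      ‖l‖ ≤ 1 → (∀ p, |u p| ≤ |t| + ρ → M.hF F u p = l.1 * u p + l.2 - h p) →
      (∀ z ∈ ball 0 ρ, M.a2 u (c.symm z) ≤ C) →
      ∀ z ∈ ball (0 : E (Fin (m + 1))) (ρ / 2), ‖iteratedFDeriv ℝ k w z‖ ≤ B := by
  let K : Set (Jet m) := closedBall 0 ρ ×ˢ closedBall 0 (R / 2) ×ˢ closedBall 0 2 ×ˢ closedBall 0 1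
  have hK : IsCompact K := (isCompact_closedBall _ _).prod ((isCompact_closedBall _ _).prod
    ((isCompact_closedBall _ _).prod (isCompact_closedBall _ _)))
  have hKW : K ⊆ jy ⁻¹' e.target := fun s hs => hsub (ball_subset_closedBall (norm_cons0_lt
    ((mem_closedBall_zero_iff.1 hs.2.1).trans (by linarith))
    ((norm_tail0_le _).trans (mem_closedBall_zero_iff.1 hs.1)) (by linarith)))
  have hφ : ∀ s : Jet m, jy s ∈ e.target → ContDiffAt ℝ ∞ (M.x ∘ e.symm) (jy s) := fun s hs =>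
    he.sm.contDiffAt (e.open_target.mem_nhds hs)
  obtain ⟨B, hB⟩ := hK.exists_bound_of_continuousOn (f := jb (M.x ∘ e.symm) C) fun s hs =>
    (cont_b (hφ s (hKW hs)) (he.inj _ (hKW hs)) C).continuousWithinAt
  obtain ⟨B', hB'⟩ := hQ (m + 1) k (ℝ × ℝ) (fun s => ginv (jJ (M.x ∘ e.symm) s))
    (jc (M.x ∘ e.symm) (F ∘ e.symm) (h ∘ e.symm) t) (jy ⁻¹' e.target) K ρ B
    (e.open_target.preimage contDiff_jy.continuous) hK hKW
    (fun i k s hs => (cd_a (hφ s hs) (he.inj _ hs) i k).contDiffWithinAt)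
    (fun s hs => (cd_c (hφ s hs) (he.inj _ hs)
      ((hF.chart he).contDiffAt (e.open_target.mem_nhds hs))
      ((hh.chart he).contDiffAt (e.open_target.mem_nhds hs)) t).contDiffWithinAt)
    (fun s hs => ginv_posDef (jJ_inj (he.inj _ (hKW hs)))) hρ
  refine ⟨B', fun u c w l H hw hl hE ha => hB' 0 w l H.sm fun z hz => ?_⟩
  have hm : (z, w z, gradient w z, l) ∈ K := ⟨ball_subset_closedBall hz,
    mem_closedBall_zero_iff.2 (hw z hz), mem_closedBall_zero_iff.2 (H.norm_P hz),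
    mem_closedBall_zero_iff.2 hl⟩
  refine ⟨hm, (H.c2 hz l (ha z hz)).trans ((le_abs_self _).trans (hB _ hm)), ?_⟩
  have h1 := H.eqn hz l (F := F) (h := fun p => l.1 * u p + l.2 - M.hF F u p) fun p => by ring
  have h2 : |u (c.symm z)| ≤ |t| + ρ := by
    rw [H.ht z hz]
    exact (abs_add_le _ _).trans (add_le_add le_rfl
      ((abs_zero_le z).trans (mem_ball_zero_iff.1 hz).le))
  have h3 : e.symm (jy (z, w z, gradient w z, l)) = c.symm z := (H.eq z hz).symm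
  rw [h1]
  simp only [jc, comp_apply, h3, hE _ h2, sub_sub_cancel]

theorem box (hCyl : WCylStmt) (hMon2 : Mon2Stmt) (hSh : SheetStmt) (hQ : QRegStmt) : WBoxStmt := by
  intro m ι _ _ X _ _ _ _ _ _ M F h Λ 𝒰 u τ s hM hF hu p hp t hr
  obtain ⟨e, R, δ, C, he, hpe, he0, hR, hδ, hsub, hev⟩ := exists_cone' hCyl hMon2 hSh hM hF hu hp hr
  obtain ⟨hC1, hC2⟩ := hCyl m ι X M F h Λ 𝒰 u τ s hM hF hu
  set ρ := min (R / 8) (δ / 2) with hρdef
  have hρ : 0 < ρ := by positivity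
  have hρR : 8 * ρ ≤ R := by have := min_le_left (R / 8) (δ / 2); linarith
  have hρδ : ρ < δ := by have := min_le_right (R / 8) (δ / 2); linarith
  have hnb : ∀ r > 0, {q | q ∈ e.source ∧ ‖e q‖ < r} ∈ 𝓝 p := fun r hr =>
    inter_mem (e.open_source.mem_nhds hpe)
      ((e.continuousAt hpe).norm.eventually (gt_mem_nhds (by simpa [he0] using hr)))
  have h1 : ∀ᶠ j in (𝒰 : Filter ℕ), ∃ cw : OpenPartialHomeomorph X (E (Fin (m + 1))) ×
      (E (Fin (m + 1)) → ℝ), GC M (u j) e cw.1 cw.2 t ρ ∧ (∀ z ∈ ball 0 ρ, |cw.2 z| ≤ R / 2) ∧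
      ∀ q ∈ e.source, |e q 0| < R → ‖cons0 (u j q - t) (tail0 (e q))‖ < ρ →
        q ∈ cw.1.source ∧ cw.1 q = cons0 (u j q - t) (tail0 (e q)) ∧ e q 0 = cw.2 (cw.1 q) := by
    filter_upwards [hev, hC1 p hp t _ (hnb ρ hρ)] with j hj ⟨q, hq, hqt⟩
    exact exists_gc (hu.adm j).sm he hρ hρR hρδ hsub hj.1 hq.1 hq.2.le hqt
  obtain ⟨cw, hcw⟩ := h1.choice
  have hball : ∀ {a : ℝ} {z : E (Fin (m + 1))}, |a| ≤ R / 2 → z ∈ ball 0 ρ →
      cons0 a (tail0 z) ∈ ball 0 (2 * R) := fun ha hz => norm_cons0_lt (ha.trans (by linarith))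
    ((norm_tail0_le _).trans (mem_ball_zero_iff.1 hz).le) (by linarith)
  have hb2 : ball (0 : E (Fin (m + 1))) (ρ / 2) ⊆ ball 0 ρ := ball_subset_ball (by linarith)
  have hbd : ∀ k : ℕ, ∃ B : ℝ, ∀ᶠ j in (𝒰 : Filter ℕ), ∀ z ∈ ball 0 (ρ / 2),
      ‖iteratedFDeriv ℝ k (cw j).2 z‖ ≤ B := fun k => by
    obtain ⟨B, hB⟩ := all_bounds' hQ he hF hu.smh (t := t) (C := C) hρ hρR hsub k
    have hl := (hu.tau.prodMk_nhds hu.sh).norm.eventually (gt_mem_nhds (a := 1) (by simp))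
    refine ⟨B, ?_⟩
    filter_upwards [hcw, hev, hl, hu.eq (|t| + ρ)] with j ⟨H, hw, _⟩ hj hl hE
    refine hB (u j) _ _ (τ j, s j) H hw hl.le hE fun z hz => ?_
    rw [H.eq z hz]
    refine hj.2 _ (hball (hw z hz) hz) ?_
    rw [← H.eq z hz, H.ht z hz, add_sub_cancel_left]
    exact (abs_zero_le z).trans_lt ((mem_ball_zero_iff.1 hz).trans hρδ)
  obtain ⟨v, hv, hlim⟩ := UL.sm_lim 𝒰 (fun j => (cw j).2) 0 (ρ / 2)
    (hcw.mono fun j hj => hj.1.sm.mono hb2) hbd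
  have hvb : ∀ z ∈ ball (0 : E (Fin (m + 1))) (ρ / 2), |v z| ≤ R / 2 := fun z hz =>
    le_of_tendsto (hlim.tendsto_at hz).abs (hcw.mono fun j hj => hj.2.1 z (hb2 hz))
  have hvt : ∀ z ∈ ball (0 : E (Fin (m + 1))) (ρ / 2), ps v z ∈ e.target := fun z hz =>
    hsub (ball_subset_closedBall (hball (hvb z hz) (hb2 hz)))
  have hconv : ∀ z ∈ ball (0 : E (Fin (m + 1))) (ρ / 2),
      Tendsto (fun j => (cw j).1.symm z) 𝒰 (𝓝 (e.symm (ps v z))) := fun z hz => by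
    have h2 : Tendsto (fun j => ps (cw j).2 z) 𝒰 (𝓝 (ps v z)) :=
      (contDiff_cons0.continuous.tendsto (v z, tail0 z)).comp
        ((hlim.tendsto_at hz).prodMk_nhds tendsto_const_nhds)
    exact ((e.continuousAt_symm (hvt z hz)).tendsto.comp h2).congr'
      (hcw.mono fun j hj => (hj.1.eq z (hb2 hz)).symm)
  have ha : ∀ z ∈ ball (0 : E (Fin (m + 1))) (ρ / 2), e.symm (ps v z) ∈ Sb 𝒰 u := fun z hz => by
    by_contra hn
    obtain ⟨N, hN, hNj⟩ := hC2 _ hn |t + z 0|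
    obtain ⟨j, j1, j2, j3⟩ := (hNj.and (hcw.and (hconv z hz hN))).exists
    have := j1 _ j3
    rw [j2.1.ht z (hb2 hz)] at this
    exact lt_irrefl _ this
  have hb : ∀ q ∈ Sb 𝒰 u, q ∈ e.source → |e q 0| < R → ‖tail0 (e q)‖ < ρ / 2 →
      e q 0 = v (cons0 0 (tail0 (e q))) := fun q hq hqe h2 h3 => by
    refine eq_of_forall_dist_le fun ε hε => ?_
    have c0 : ContinuousAt (fun q => e q 0) q :=
      (EuclideanSpace.proj (𝕜 := ℝ) (0 : Fin (m + 1))).continuous.continuousAt.comp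
        (e.continuousAt hqe)
    have c1 : ContinuousAt (fun q => cons0 0 (tail0 (e q))) q :=
      ((contDiff_cons0_right 0).comp contDiff_tail0).continuous.continuousAt.comp
        (e.continuousAt hqe)
    have hmem : cons0 0 (tail0 (e q)) ∈ ball (0 : E (Fin (m + 1))) (ρ / 2) := by
      rwa [mem_ball_zero_iff, norm_cons0_zero]
    have c2 : ContinuousAt (fun q => v (cons0 0 (tail0 (e q)))) q :=
      ContinuousAt.comp (f := fun q => cons0 0 (tail0 (e q)))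
        (hv.continuousOn.continuousAt (isOpen_ball.mem_nhds hmem)) c1
    have hN : ∀ᶠ q' in 𝓝 q, q' ∈ e.source ∧ |e q' 0| < R ∧
        cons0 0 (tail0 (e q')) ∈ ball (0 : E (Fin (m + 1))) (ρ / 2) ∧
        dist (e q' 0) (e q 0) < ε / 3 ∧
        dist (v (cons0 0 (tail0 (e q')))) (v (cons0 0 (tail0 (e q)))) < ε / 3 := by
      filter_upwards [e.open_source.mem_nhds hqe, c0.abs.eventually (gt_mem_nhds h2),
        c1 (isOpen_ball.mem_nhds hmem), Metric.tendsto_nhds.1 c0 (ε / 3) (by positivity),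
        Metric.tendsto_nhds.1 c2 (ε / 3) (by positivity)] with q' a1 a2 a3 a4 a5
      exact ⟨a1, a2, a3, a4, a5⟩
    obtain ⟨j, ⟨q', ⟨a1, a2, a3, a4, a5⟩, a6⟩, j2, j3⟩ := ((hC1 q hq t _ hN).and (hcw.and
      (Metric.tendstoUniformlyOn_iff.1 hlim (ε / 3) (by positivity)))).exists
    obtain ⟨-, b2, b3⟩ := j2.2.2 q' a1 a2 (by
      rw [a6, sub_self]; exact mem_ball_zero_iff.1 (hb2 a3))
    rw [b2, a6, sub_self] at b3
    have b4 := j3 _ a3
    rw [← b3, dist_comm] at b4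
    rw [dist_comm] at a4
    linarith [dist_triangle4 (e q 0) (e q' 0) (v (cons0 0 (tail0 (e q'))))
      (v (cons0 0 (tail0 (e q))))]
  have hc : ∀ z ∈ ball (0 : E (Fin (m + 1))) (ρ / 2), v z = v (cons0 0 (tail0 z)) := fun z hz => by
    have := hb _ (ha z hz) (e.map_target (hvt z hz))
    rw [e.right_inv (hvt z hz)] at this
    exact this ((hvb z hz).trans_lt (by linarith))
      ((norm_tail0_le z).trans_lt (mem_ball_zero_iff.1 hz))
  obtain ⟨g, g1, g2, g3, g4, g5, g6⟩ := exists_flatten (σ := fun y => v (cons0 0 y)) (ρ := ρ / 2)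
    (hv.comp (contDiff_cons0_right 0).contDiffOn fun y hy => by
      rwa [mem_ball_zero_iff, norm_cons0_zero, ← mem_ball_zero_iff])
  have hO : IsOpen {y : E (Fin (m + 1)) | |y 0| < R} := isOpen_lt (by fun_prop) continuous_const
  let e' := e.trans (g.restrOpen _ hO)
  have he' : IsChart M.x e' := he.trans _ (g5.mono inter_subset_left) (g6.mono inter_subset_left)
  have hs' : ∀ q, q ∈ e'.source ↔ q ∈ e.source ∧ ‖tail0 (e q)‖ < ρ / 2 ∧ |e q 0| < R := fun q => by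
    change q ∈ e.source ∧ e q ∈ g.source ∧ _ ↔ _
    rw [g1]; rfl
  have hsl : ∀ q ∈ e'.source, q ∈ Sb 𝒰 u ↔ e' q 0 = 0 := fun q hq => by
    obtain ⟨a1, a2, a3⟩ := (hs' q).1 hq
    change _ ↔ g (e q) 0 = 0
    rw [g3, cons0_zero, sub_eq_zero]
    refine ⟨fun hq => hb q hq a1 a3 a2, fun hq => ?_⟩
    have := ha (cons0 0 (tail0 (e q))) (by rwa [mem_ball_zero_iff, norm_cons0_zero])
    rwa [ps, ← hq, tail0_cons0, cons0_tail0, e.left_inv a1] at this
  have hpe' : p ∈ e'.source := (hs' p).2 ⟨hpe, by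
    rw [he0]; exact (norm_tail0_le _).trans_lt (by simpa using hρ), by simpa [he0] using hR⟩
  have he0' : e' p = 0 := by
    have a1 : tail0 (e' p) = tail0 0 := by
      change tail0 (g (e p)) = _
      rw [g3, tail0_cons0, he0]
    rw [← cons0_tail0 (e' p), (hsl p hpe').1 hp, a1]
    exact cons0_tail0 0
  obtain ⟨r0, hr0, hr1⟩ := nhds_basis_closedBall.mem_iff.1
    (he0' ▸ e'.open_target.mem_nhds (e'.map_source hpe'))
  set r := min r0 (ρ / 2) with hrdef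
  have hr : 0 < r := by positivity
  have hrρ : r ≤ ρ / 2 := min_le_right _ _
  have hb3 : ball (0 : E (Fin (m + 1))) r ⊆ ball 0 (ρ / 2) := ball_subset_ball hrρ
  refine ⟨e', r, fun j => ((cw j).1.symm.restrOpen (ball 0 r) isOpen_ball).symm, he', hpe', he0',
    hr, (closedBall_subset_closedBall (min_le_left _ _)).trans hr1, hsl, ?_,
    ⟨_, hnb (r / 4) (by positivity), r / 4, by positivity, ?_⟩, fun k _ => ?_⟩
  · filter_upwards [hcw] with j ⟨H, _, _⟩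
    refine ⟨⟨H.hc.sm.mono inter_subset_left, fun z hz => H.hc.inj z hz.1⟩, ?_,
      fun z hz => H.ht z (hb2 (hb3 hz))⟩
    change (cw j).1.target ∩ ball 0 r = _
    rw [H.tg]; exact inter_eq_right.2 (hb3.trans hb2)
  · filter_upwards [hcw] with j ⟨_, _, H⟩ q hq hqt
    have a1 : ‖cons0 (u j q - t) (tail0 (e q))‖ < r / 2 := by
      linarith [norm_cons0_le (u j q - t) (tail0 (e q)), norm_tail0_le (e q), hq.2]
    obtain ⟨a2, a3, -⟩ := H q hq.1 (by linarith [abs_zero_le (e q), hq.2]) (by linarith)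
    have a4 : ‖(cw j).1 q‖ < r / 2 := a3 ▸ a1
    exact ⟨⟨a2, mem_ball_zero_iff.2 (by change ‖(cw j).1 q‖ < r; linarith)⟩, a4⟩
  · refine jets_lim 𝒰 (fun j => M.x ∘ (cw j).1.symm) _ 0 r
      (hcw.mono fun j hj => hj.1.hc.sm.mono (hj.1.tg ▸ hb3.trans hb2)) (fun k => ?_)
      (fun z hz => ?_) k
    · obtain ⟨B, hB⟩ := comp_bound e.open_target (isCompact_closedBall _ _) hsub he.sm 𝒰
        (fun j => ps (cw j).2) 0 r (hcw.mono fun j hj => ⟨fun z hz =>
          (contDiffAt_ps (hj.1.wAt (hb2 (hb3 hz)))).contDiffWithinAt, fun z hz =>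
          ball_subset_closedBall (hball (hj.2.1 z (hb2 (hb3 hz))) (hb2 (hb3 hz)))⟩) (fun k => by
          obtain ⟨B, hB⟩ := hbd k
          obtain ⟨C', hC'⟩ := ps_bound (m := m) (r := ρ) k
          refine ⟨B + C', ?_⟩
          filter_upwards [hB, hcw] with j j1 j2 z hz
          exact hC' _ B j2.1.sm z (hb2 (hb3 hz)) (j1 z (hb3 hz))) k
      refine ⟨B, ?_⟩
      filter_upwards [hB, hcw] with j j1 j2 z hz
      rw [((j2.1.ev (hb2 (hb3 hz)) M.x).iteratedFDeriv ℝ k).self_of_nhds]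
      exact j1 z hz
    · have a1 : e'.symm (z - z 0 • ee 0) = e.symm (ps v z) := by
        change e.symm (g.symm _) = _
        have a2 : tail0 (z - z 0 • ee 0) = tail0 z := by ext i; simp [ee]
        have a3 : (z - z 0 • ee 0 : E (Fin (m + 1))) 0 = 0 := by simp [ee]
        rw [g4, a2, a3, zero_add, ← hc z (hb3 hz), ps]
      rw [a1]
      exact (M.continuous_x.tendsto _).comp (hconv z (hb3 hz))

end W

end Crest.Agent.N228

end
end

-- ▼ part N228/W/Conv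
section

/-!
# Row 228, necks (helper16): convergence to the cylinder
-/

set_option autoImplicit false
set_option linter.unusedSectionVars false
open MeasureTheory Set Filter Topology Function Metric
open scoped ContDiff InnerProductSpace RealInnerProductSpace

noncomputable section

namespace Crest.Agent.N228

open Crest.Agent.N222

namespace W

variable {m : ℕ} {ι : Type} [Fintype ι] [DecidableEq ι] {X : Type} [TopologicalSpace X]
  [T2Space X] [SecondCountableTopology X] [MeasurableSpace X] [BorelSpace X] [CompactSpace X]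

open Lm Lm.C3 in
/-- pointwise convergence of the jets in a box -/
theorem jet_box {M : Imm (m + 1) ι X} (hM : Injective M.x) {𝒰 : Ultrafilter ℕ} {u : ℕ → X → ℝ}
    (hu : ∀ j, M.Sm (u j)) {S U : Set X} {p : S} {t ρ : ℝ}
    {e : OpenPartialHomeomorph X (E (Fin (m + 1)))}
    {c : ℕ → OpenPartialHomeomorph X (E (Fin (m + 1)))} (B : Box M 𝒰 u p t e ρ c) (hU : IsOpen U)
    (hS : ∀ q ∈ e.source ∩ U, q ∈ S ↔ e q 0 = 0) {N : Imm m ι S} (hN : ∀ q, N.x q = M.x q)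
    (hp : p.1 ∈ U) {q : ℕ → X} (h1 : Tendsto q 𝒰 (𝓝 p))
    (h2 : Tendsto (fun j => u j (q j)) 𝒰 (𝓝 t)) :
    Tendsto (fun j => gJ M (u j) (q j)) 𝒰 (𝓝 (N.cylP p, N.cylB p)) := by
  have hKO := ball_sub B.sub
  have hC : C2 (fun j => M.x ∘ (c j).symm) (fun z => M.x (e.symm (rep z 0))) 𝒰 (ball 0 ρ) := by
    have : (fun z : E (Fin (m + 1)) => M.x (e.symm (rep z 0))) =
        fun z => M.x (e.symm (z - z 0 • ee 0)) := by
      funext z
      rw [rep, zero_sub, neg_smul, ← sub_eq_add_neg]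
    rw [this]
    exact c2_iff.2 B.conv
  have hC' : C2 (fun j => M.gx (u j) ∘ (c j).symm) (cyl M e t) 𝒰 (ball 0 ρ) := by
    refine (hC.comp isOpen_ball (isCompact_closedBall 0 ρ) (isOpen_O e) ball_subset_closedBall hKO
      (sm_base B.ch) (B.chj.mono fun j hj => hj.2.1 ▸ hj.1.sm) isOpen_univ
      (contDiff_lift t).contDiffOn fun _ _ => mem_univ _).congr isOpen_ball
      (B.chj.mono fun j hj z hz => ?_) fun _ _ => rfl
    simp only [comp_apply, Imm.gx, hj.2.2 z hz]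
  obtain ⟨N0, hN0, δ, hδ, hcov⟩ := B.cover
  have h3 : ∀ᶠ j in (𝒰 : Filter ℕ), q j ∈ (c j).source ∧ ‖c j (q j)‖ < ρ / 2 := by
    filter_upwards [hcov, h1.eventually hN0, Metric.tendsto_nhds.1 h2 δ hδ] with j a1 a2 a3
    exact a1 _ a2 a3
  obtain ⟨z0, hz0, hl⟩ := (isCompact_closedBall (0 : E (Fin (m + 1))) ρ).ultrafilter_le_nhds
    (𝒰.map fun j => c j (q j)) (by
      rw [Ultrafilter.coe_map, le_principal_iff, mem_map]
      exact h3.mono fun j hj => mem_closedBall_zero_iff.2 (by linarith [hj.2, B.pos]))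
  replace hl : Tendsto (fun j => c j (q j)) 𝒰 (𝓝 z0) := hl
  have hz : ∀ᶠ j in (𝒰 : Filter ℕ), c j (q j) ∈ ball (0 : E (Fin (m + 1))) ρ :=
    h3.mono fun j hj => mem_ball_zero_iff.2 (by linarith [hj.2, B.pos])
  have hO := hKO hz0
  have h4 : Tendsto (fun j => (c j).symm (c j (q j))) 𝒰 (𝓝 (e.symm (rep z0 0))) :=
    (Imm.tendsto_iff_x hM).2 (seq_of_tuo hC.c0
      ((sm_base B.ch).contDiffAt ((isOpen_O e).mem_nhds hO)).continuousAt hz hl)
  have h5 : e.symm (rep z0 0) = p :=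
    tendsto_nhds_unique (h4.congr' (h3.mono fun j hj => (c j).left_inv hj.1)) h1
  have hr : rep z0 0 = cons0 0 (tail0 z0) := C4.rep_eq _
  obtain ⟨e', he', -, ht', -, hsy⟩ := exists_sliceChart (B.ch.restr hU) hS p
  have heN : IsChart N.x e' := by rw [show N.x = fun q : S => M.x q from funext hN]; exact he'
  have hy : tail0 z0 ∈ e'.target := by
    rw [ht']
    refine ⟨hr ▸ hO, ?_⟩
    change e.symm (cons0 0 (tail0 z0)) ∈ U
    rw [← hr, h5]; exact hp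
  have hψ : cyl M e t =ᶠ[𝓝 z0] lift t fun w => N.x (e'.symm (tail0 w)) := by
    filter_upwards [contDiff_tail0.continuous.continuousAt.preimage_mem_nhds
      (e'.open_target.mem_nhds hy)] with w hw
    simp only [cyl, lift, hN, hsy _ hw, C4.rep_eq]
    rfl
  have h6 : e'.symm (tail0 z0) = p := Subtype.ext (by
    rw [hsy _ hy]
    change e.symm (cons0 0 (tail0 z0)) = _
    rw [← hr, h5])
  have a3 := seq_of_tuo hC'.c1 (cont_d1 B.ch t hO).continuousAt hz hl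
  have a4 := seq_of_tuo hC'.c2 (cont_d2 B.ch t hO).continuousAt hz hl
  have hJ := inj_cyl' B.ch t hO
  have a5 := ((continuousAt_PJ hJ).tendsto.comp a3).prodMk_nhds
    ((continuousAt_BJ hJ _).tendsto.comp (a3.prodMk_nhds a4))
  dsimp only at a5
  rw [PJ_cyl heN hy hψ, BJ_cyl heN hy hψ, h6] at a5
  refine a5.congr' ?_
  filter_upwards [B.chj, h3] with j hj hq
  have hc : IsChart (M.graph (u j) (hu j)).x (c j) := Imm.isChart_graph (hu j) hj.1
  have b1 := fun b c => P_chart hc hq.1 b c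
  have b2 := fun a b c => DP_chart hc hq.1 a b c
  rw [Imm.graph_pre (hu j), Imm.graph_x (hu j)] at b1 b2
  simp only [gJ, b1, b2, comp_apply]

open Cv Lm in
theorem conv_of (hC : WCylStmt) (hN : WNetStmt) (hB : WBoxStmt) (hA : WAllHtStmt) : WConvStmt := by
  intro m ι _ _ X _ _ _ _ _ _ M F h Λ 𝒰 u τ s hinj hF hseq
  have hC := (hC m ι X M F h Λ 𝒰 u τ s hinj hF hseq).2
  have hU := (hN m ι X M F h Λ 𝒰 u τ s hinj hF hseq).1.isOpen_compl
  have hB := hB m ι X M F h Λ 𝒰 u τ s hinj hF hseq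
  have hA := hA m ι X M F h Λ 𝒰 u τ s hinj hF hseq
  have hu : ∀ j, M.Sm (u j) := fun j => (hseq.adm j).sm
  have hsl : ∀ {p t e ρ c}, Box M 𝒰 u p t e ρ c → ∀ q ∈ e.source ∩ (M.Bad 𝒰 u)ᶜ,
      q ∈ M.Sig 𝒰 u ↔ e q 0 = 0 := fun B q hq =>
    ⟨fun h => (B.slice q hq.1).1 h.1, fun h => ⟨(B.slice q hq.1).2 h, hq.2⟩⟩
  have hch : ∀ q ∈ M.Sig 𝒰 u, ∃ e : OpenPartialHomeomorph X (E (Fin (m + 1))), IsChart M.x e ∧
      q ∈ e.source ∧ ∀ p ∈ e.source, p ∈ M.Sig 𝒰 u ↔ e p 0 = 0 := fun q hq => by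
    obtain ⟨e, ρ, c, B⟩ := hB q hq.1 0 (hA q hq 0)
    exact ⟨e.restrOpen _ hU, B.ch.restr hU, ⟨B.mem, hq.2⟩, hsl B⟩
  obtain ⟨N, hNx⟩ := M.exists_slice hch
  have hjet : ∀ (q : ℕ → X) (p : M.Sig 𝒰 u) (t : ℝ), Tendsto q 𝒰 (𝓝 p) →
      Tendsto (fun j => u j (q j)) 𝒰 (𝓝 t) →
      Tendsto (fun j => gJ M (u j) (q j)) 𝒰 (𝓝 (N.cylP p, N.cylB p)) := fun q p t h1 h2 => by
    obtain ⟨e, ρ, c, B⟩ := hB p p.2.1 t (hA p p.2 t)
    exact jet_box hinj hu B hU (hsl B) hNx p.2.2 h1 h2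
  refine ⟨N, hNx, hch, fun z hz => ?_, fun Ψ K T hΨ hK hd hs => ?_, hjet,
    fun O K a b hO hK hd hin => ?_⟩
  rotate_right
  · by_contra hn
    have h1 : ∀ᶠ j in (𝒰 : Filter ℕ), ∃ q, (q, u j q) ∈ K ×ˢ Icc a b ∧
        (q, u j q, gJ M (u j) q) ∉ O := by
      filter_upwards [Ultrafilter.eventually_not.2 hn] with j hj
      push Not at hj
      obtain ⟨q, q1, q2, q3⟩ := hj
      exact ⟨q, ⟨q1, q2⟩, q3⟩
    obtain ⟨q, hq⟩ := h1.choice
    obtain ⟨⟨p, t⟩, hp, hl⟩ := (hK.prod isCompact_Icc).ultrafilter_le_nhds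
      (𝒰.map fun j => (q j, u j (q j))) (by
        rw [Ultrafilter.coe_map, le_principal_iff, mem_map]
        exact hq.mono fun j hj => hj.1)
    have l1 : Tendsto q 𝒰 (𝓝 p) := (continuous_fst.tendsto _).comp hl
    have l2 : Tendsto (fun j => u j (q j)) 𝒰 (𝓝 t) := (continuous_snd.tendsto _).comp hl
    have hS : p ∈ Sb 𝒰 u := by
      by_contra hS
      obtain ⟨N0, hN0, hev⟩ := hC p hS (|t| + 1)
      obtain ⟨j, j1, j2, j3⟩ := (hev.and ((l1.eventually hN0).and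
        (l2.abs.eventually (gt_mem_nhds (lt_add_one |t|))))).exists
      exact (j1 _ j2).not_gt j3
    have hp' : p ∈ M.Sig 𝒰 u := ⟨hS, disjoint_left.1 hd hp.1⟩
    obtain ⟨j, j1, j2⟩ := (hq.and ((l1.prodMk_nhds (l2.prodMk_nhds
      (hjet q ⟨p, hp'⟩ t l1 l2))).eventually (hO.mem_nhds (hin ⟨p, hp'⟩ hp.1 t hp.2)))).exists
    exact j1.2 j2
  · obtain ⟨z', h1, h2, h3⟩ := exists_ext hU (fun q hq => hq.2) hch hNx hz
    exact ⟨z', h1, subset_compl_iff_disjoint_right.1 h2, h3⟩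
  have hK' : IsCompact (M.Sig 𝒰 u ∩ K) := by
    have : M.Sig 𝒰 u ∩ K = Sb 𝒰 u ∩ K := Set.ext fun q =>
      ⟨fun h => ⟨h.1.1, h.2⟩, fun h => ⟨⟨h.1, disjoint_left.1 hd h.2⟩, h.2⟩⟩
    rw [this]
    exact hK.inter_left (Cv.isClosed_Sb _ _)
  refine glue (P := fun Ψ => Tendsto (fun j => ∫ q, gInt M Ψ (u j) q ∂M.gmu (u j)) 𝒰
    (𝓝 (∫ q : M.Sig 𝒰 u, (∫ t : ℝ, Ψ (q, t, N.cylP q, N.cylB q)) ∂N.mu))) hK (by simp [gInt])
    (fun Ψ Ψ' h1 h2 h1' h2' h3 h3' => ?_) (fun p hp t => ?_) hΨ hs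
  · rw [integral_integral_add (integrable_cyl N hK' h1 h2) (integrable_cyl N hK' h1' h2')]
    exact (h3.add h3').congr fun j =>
      (integral_add (integrable_gInt h1 (hu j)) (integrable_gInt h1' (hu j))).symm
  by_cases hp' : p ∈ Sb 𝒰 u
  · have hq : p ∈ M.Sig 𝒰 u := ⟨hp', disjoint_left.1 hd hp⟩
    obtain ⟨e, ρ, c, B⟩ := hB p hp' t (hA p hq t)
    obtain ⟨N0, hN0, δ, hδ, hcov⟩ := B.cover
    have hρ := half_pos B.pos
    have h1 : {q | ‖e q‖ < ρ / 2} ∈ 𝓝 p :=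
      (e.continuousAt B.mem).norm.eventually_lt_const (by simpa [B.zero] using B.pos)
    refine ⟨(N0 ∩ ((e.source ∩ (M.Bad 𝒰 u)ᶜ) ∩ {q | ‖e q‖ < ρ / 2})) ×ˢ ball t (min δ (ρ / 2)),
      prod_mem_nhds (inter_mem hN0 (inter_mem ((e.open_source.inter hU).mem_nhds ⟨B.mem, hq.2⟩) h1))
        (ball_mem_nhds t (lt_min hδ hρ)), fun Ψ hΨ _ hO => ?_⟩
    rw [← integral_cInt hΨ B.ch B.sub hU (hsl B) hNx ⟨p, hq⟩ fun s h =>
      ⟨(hO s h).1.2.1, (hO s h).1.2.2, (lt_min_iff.1 (hO s h).2).2⟩]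
    exact tendsto_box hinj hu B hΨ (hcov.mono fun j hj q h =>
      (hj q (hO _ h).1.1 (lt_min_iff.1 (hO _ h).2).1).1)
  · obtain ⟨N0, hN0, hev⟩ := hC p hp' T
    refine ⟨(N0 ∩ (Sb 𝒰 u)ᶜ) ×ˢ univ, prod_mem_nhds (inter_mem hN0
      ((Cv.isClosed_Sb _ _).isOpen_compl.mem_nhds hp')) univ_mem, fun Ψ _ hs hO => ?_⟩
    have e1 : ∀ (q : M.Sig 𝒰 u) (t : ℝ), Ψ (q, t, N.cylP q, N.cylB q) = 0 := fun q t => by
      by_contra h
      exact (hO _ h).1.2 q.2.1
    simp only [e1, integral_zero]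
    refine tendsto_const_nhds.congr' (hev.mono fun j hj => ?_)
    have e2 : ∀ q, gInt M Ψ (u j) q = 0 := fun q => by
      by_contra h
      exact (hj q (hO _ h).1.1).not_ge (hs _ h).2
    simp only [e2, integral_zero]

end W

end Crest.Agent.N228

end
end

-- ▼ part N228/W/All

/-! # Row 228, necks (helper16): the unconditional statements -/

set_option autoImplicit false

namespace Crest.Agent.N228

open Crest.Agent.N222

theorem wCyl : WCylStmt := W.cyl_of sheet (mon2 mon tan) cal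

theorem wW2 : W2Stmt :=
  w2 mon (mon2 mon tan) sheet
    (w mon (mon2 mon tan) sheet sim cal (blow tan (mon2 mon tan) sheet cal) lv3)

theorem wNet : WNetStmt :=
  W.net_of wW2 (fl sheet cal (blow tan (mon2 mon tan) sheet cal) lv1 lv2) (ssy sim cal) cal

theorem wBox : WBoxStmt := W.box wCyl (mon2 mon tan) sheet qReg

theorem wAllHt : WAllHtStmt :=
  W.allHt_of wCyl wBox (fl2 (blow tan (mon2 mon tan) sheet cal) lv1) wW2

theorem wConv : WConvStmt := W.conv_of wCyl wNet wBox wAllHt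

theorem wLim : WLimStmt := W.lim_of wNet wConv pic sheet

end Crest.Agent.N228
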